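import Crest.Agent.X262.Vb.Defs
import Crest.Agent.X262.Tree87.T4
import Crest.Agent.X262.Div34.Spec

/-!
# Row 262, road B, EMB (helper11), part 0: one more factor of the ambient space

* `bs`, `prP`, `exP`, `exd`, `upq`, `prC`, `prD`, `prF` : forgetting the factor `none`;
* `Gr T T' d` : near the curves of degree `d` the target `T'` is the graph of a morphism on `T`;
* `EmbStmt`   : the invariants of `T` are the sums of the invariants of `T'`;
* the pieces `PropStmt`, `BndStmt`, `ExactStmt`, `DescStmt`, `LftStmt`, `RelStmt`, `UnivStmt`.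
-/

set_option autoImplicit false
set_option linter.unusedSectionVars false

noncomputable section

namespace Crest.Agent.X262.Emb

open Crest.Agent.X277 Crest.Agent.X277.BD Crest.Agent.X277.Pst Crest.Agent.X277.BD.Cyc Polynomial
open Crest.Agent.X262.Hb Crest.Agent.X262.Vb
open Crest.Agent.X262.Bub96 (hv Tr)
open Crest.Agent.X262.Bub96.Tr (dot)
open Crest.Agent.X262.Tree87 (TL Rb HZ GoodS)
open Crest.Agent.X262.Val40 (dn)
open Crest.Agent.X262.Div (rn)

section Gen

variable {J : Type} [Fintype J] [DecidableEq J] {io : J → Type} [∀ j, Fintype (io j)]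
  [∀ j, DecidableEq (io j)] {I I₀ E : Type} [Field E] [Algebra ℂ E]

/-- the restriction to the points `g` is injective on `U` -/
def InjOn (g : I₀ → I) (U : Submodule E (I → E)) : Prop := ∀ w ∈ U, (∀ q, w (g q) = 0) → w = 0

/-- gauge equivalence in all multidegrees up to `N` -/
def GeqUp (N : ℕ) (z z' : Cfg io I E) : Prop :=
  ∃ c : I → J → E, (∀ q j, c q j ≠ 0) ∧ (∀ q, z'.y q = (z.gau c).y q) ∧
    ∀ κ : J → ℕ, (∀ j, κ j ≤ N) → z'.V κ = (z.gau c).V κ

/-- the points are norming at `W` for the sections of `O(κ)` -/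
def NrmAt {d : J → ℕ} (ξ : Dat io d I E) (W : RZ ℂ E) (κ : J → ℕ) : Prop :=
  ∀ σ : E[X], σ.natDegree ≤ dot κ d →
    (∀ q, W.v (hv (dot κ d) σ (ξ.x q)) ≤ (lw κ (ξ.pt (ξ.x q))).val W) →
    ∀ t, W.v (hv (dot κ d) σ t) ≤ (lw κ (ξ.pt t)).val W

end Gen

variable {J : Type} [Fintype J] [DecidableEq J] {io : Option J → Type} [∀ j, Fintype (io j)]
  [∀ j, DecidableEq (io j)] {A A' : Type} [Fintype A] [Fintype A']

/-- the old factors -/
abbrev bs (io : Option J → Type) : J → Type := fun j => io (some j)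

/-- the old coordinates of a point -/
def prP {E : Type} (y : Pnt io E) : Pnt (bs io) E := fun j => y (some j)

/-- a point from its old and new coordinates -/
def exP {E : Type} (y : Pnt (bs io) E) (u : io none → E) : Pnt io E
  | none => u
  | some j => y j

/-- a multidegree from its old part and the new degree -/
def exd (d : J → ℕ) (n : ℕ) : Option J → ℕ
  | none => n
  | some j => d j

/-- polynomials in the old variables -/
def upq : MvPolynomial (Vr (bs io)) ℂ →ₐ[ℂ] MvPolynomial (Vr io) ℂ :=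
  MvPolynomial.rename fun v => ⟨some v.1, v.2⟩

/-- the configuration of the old factors -/
def prC {I E : Type} [Field E] (z : Cfg io I E) : Cfg (bs io) I E where
  y q := prP (z.y q)
  V κ := z.V (exd κ 0)

/-- the datum of the old factors -/
def prD {d : J → ℕ} {n : ℕ} {I K : Type} [Field K] (η : Dat io (exd d n) I K) :
    Dat (bs io) d I K where
  f j := η.f (some j)
  x := η.x
  cp := ⟨fun j => η.cp.1 (some j), fun j => η.cp.2.1 (some j), fun j => η.cp.2.2 (some j)⟩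

/-- pull-back of a family of classes -/
def prF {B : Th} {M : Type} (Φ : MFam B (bs io) M) : MFam B io M :=
  fun E _ _ y => Φ E fun q => prP (y q)

/-- near the curves of degree `d`, `T'` is the graph of a morphism on `T` which is locally given
by the polynomials `q l` -/
structure Gr (T : Tgt (bs io) A) (T' : Tgt io A') (d : J → ℕ) where
  /-- the charts -/
  L : Type
  [fin : Fintype L]
  /-- the degrees -/
  m : L → J → ℕ
  /-- the local formulas -/
  q : L → io none → MvPolynomial (Vr (bs io)) ℂ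
  hom : ∀ l a, MH (q l a) (m l)
  cov : ∀ (E : Type) [Field E] [Algebra ℂ E] [IsAlgClosed E] (t : Tr E J (bs io)), t.OK →
    t.deg = d → (∀ x, T.On (t.ev x)) → ∀ x, ∃ l a, pv (t.ev x) (q l a) ≠ 0
  sec : ∀ (E : Type) [Field E] [Algebra ℂ E] (y : Pnt (bs io) E) (l : L), NZ y → T.On y →
    (∃ a, pv y (q l a) ≠ 0) → T'.On (exP y fun a => pv y (q l a))
  idF : ∀ a, upq (T.F a) ∈ Ideal.span (Set.range T'.F)
  idq : ∀ l a b, MvPolynomial.X ⟨none, a⟩ * upq (q l b) - MvPolynomial.X ⟨none, b⟩ * upq (q l a) ∈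
    Ideal.span (Set.range T'.F)

attribute [instance] Gr.fin

/-- the number of new moduli -/
def mp (io : Option J → Type) [∀ j, Fintype (io j)] (n : ℕ) : ℕ :=
  Fintype.card (io none) * (n + 1) - 1

/-- the codimension of the graph -/
def cp' (io : Option J → Type) [∀ j, Fintype (io j)] (c : ℕ) : ℕ :=
  c + (Fintype.card (io none) - 1)

/-- **EMB**: one more factor refines the grading -/
def EmbStmt : Prop :=
  ∀ (B : Th), B.Ax → ∀ {J : Type} [Fintype J] [DecidableEq J] {io : Option J → Type}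
    [∀ j, Fintype (io j)] [∀ j, DecidableEq (io j)] {A A' : Type} [Fintype A] [Fintype A']
    (T : Tgt (bs io) A) (T' : Tgt io A') (c : ℕ) (d : J → ℕ), (∀ j, Nontrivial (io j)) →
    Good T c d → (∀ n, Good T' (cp' io c) (exd d n)) → Gr T T' d → ∃ N₀ : ℕ,
    ∀ {M : Type} [Fintype M] (Φ : MFam B (bs io) M), MCls B T Φ →
      (∀ n, N₀ < n → GW B T' (exd d n) (prF Φ) = 0) ∧
      GW B T d Φ = ∑ n ∈ Finset.range (N₀ + 1), GW B T' (exd d n) (prF Φ)

/-! ### the pieces -/

/-- sections which are everywhere proportional to the coordinates -/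
def PropStmt : Prop :=
  ∀ {J : Type} [Fintype J] [DecidableEq J] {io : J → Type} [∀ j, Fintype (io j)]
    [∀ j, DecidableEq (io j)] {I E E' : Type} [Fintype I] [Field E] [Algebra ℂ E] [Field E']
    [Algebra ℂ E'] {d : J → ℕ} {N : ℕ} (z : Cfg io I E) (β : E →ₐ[ℂ] E') (j : J), TL d N z →
    2 ≤ N → ∀ s : io j → I → E', (∀ a, s a ∈ mapS β (z.V (Pi.single j 1))) →
    (∀ q a b, s a q * β (z.y q j b) = s b q * β (z.y q j a)) →
    ∃ μ : E', ∀ a q, s a q = μ * β (z.y q j a)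

/-- the new degree is bounded; the points of a tree-like configuration lie in a chart -/
def BndStmt : Prop :=
  ∀ {J : Type} [Fintype J] [DecidableEq J] {io : Option J → Type} [∀ j, Fintype (io j)]
    [∀ j, DecidableEq (io j)] {A A' : Type} [Fintype A] [Fintype A'] {T : Tgt (bs io) A}
    {T' : Tgt io A'} {d : J → ℕ} (G : Gr T T' d), ∃ N₀ : ℕ, ∀ {I E : Type} [Fintype I] [Field E]
    [Algebra ℂ E] (n N : ℕ) (z : Cfg io I E), (∀ a j, T'.k a j ≤ N) → TL (exd d n) N z →
    z.On T' → n ≤ N₀ ∧ ∀ q, ∃ l a, pv (prP (z.y q)) (G.q l a) ≠ 0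

/-- the derivatives in the new variables -/
def jac0 (T' : Tgt io A') : A' → io none → MvPolynomial (Vr io) ℂ :=
  fun a i => MvPolynomial.pderiv ⟨none, i⟩ (T'.F a)

/-- the kernel of the map of obstruction spaces -/
def Tk (T' : Tgt io A') {I E : Type} [Fintype I] [Field E] [Algebra ℂ E] (z : Cfg io I E) :
    Submodule E (A' × I → E) := Rb T'.k (jac0 T') z

/-- `r` expresses the old equations by the new ones -/
def IsR (T : Tgt (bs io) A) (T' : Tgt io A') (r : A → A' → MvPolynomial (Vr io) ℂ) : Prop :=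
  HZ (fun a => exd (T.k a) 0) T'.k r ∧ ∀ a, upq (T.F a) = ∑ b, r a b * T'.F b

/-- the map given by `r` -/
def phi (r : A → A' → MvPolynomial (Vr io) ℂ) {I E : Type} [Field E] [Algebra ℂ E]
    (z : Cfg io I E) : (A' × I → E) →ₗ[E] (A × I → E) :=
  LinearMap.pi fun x => ∑ b, pv (z.y x.2) (r x.1 b) • LinearMap.proj (b, x.2)

/-- the exact sequence `0 → Tk → Eb' → Eb → 0` -/
def ExactStmt : Prop :=
  ∀ {J : Type} [Fintype J] [DecidableEq J] {io : Option J → Type} [∀ j, Fintype (io j)]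
    [∀ j, DecidableEq (io j)] {A A' : Type} [Fintype A] [Fintype A'] {T : Tgt (bs io) A}
    {T' : Tgt io A'} {d : J → ℕ} (_ : Gr T T' d) (r : A → A' → MvPolynomial (Vr io) ℂ) (c n : ℕ),
    IsR T T' r → Good T c d → Good T' (cp' io c) (exd d n) → ∃ N₀ : ℕ, ∀ {I E : Type} [Fintype I]
    [Field E] [Algebra ℂ E] (N : ℕ) (z : Cfg io I E), N₀ ≤ N → TL (exd d n) N z → z.On T' →
    (z.Eb T').map (phi r z) = (prC z).Eb T ∧ z.Eb T' ⊓ LinearMap.ker (phi r z) = Tk T' z ∧
      Module.finrank E (Tk T' z) = mp io n ∧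
      ∀ q, Module.finrank E (Tree87.pR (jac0 T') (z.y q)) = Fintype.card (io none) - 1

/-- a configuration on the graph is determined by its old part -/
def DescStmt : Prop :=
  ∀ {J : Type} [Fintype J] [DecidableEq J] {io : Option J → Type} [∀ j, Fintype (io j)]
    [∀ j, DecidableEq (io j)] {A A' : Type} [Fintype A] [Fintype A'] {T : Tgt (bs io) A}
    {T' : Tgt io A'} {d : J → ℕ} (_ : Gr T T' d),
    ∃ lift : ∀ (I E : Type) [Field E] [Algebra ℂ E], Cfg (bs io) I E → Cfg io I E, ∀ N₁ : ℕ,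
    ∃ N₀ : ℕ, ∀ {I I₀ E E₀ : Type} [Fintype I] [Fintype I₀] [Field E] [Algebra ℂ E] [Field E₀]
    [Algebra ℂ E₀] (n N : ℕ) (z : Cfg io I E) (g : I₀ → I) (z₀ : Cfg (bs io) I₀ E₀)
    (β : E₀ →ₐ[ℂ] E), N₀ ≤ N → TL (exd d n) N z → z.On T' →
    (∀ κ : J → ℕ, (∀ j, κ j ≤ N) → InjOn g (z.V (exd κ 0))) →
    GeqUp N (z₀.map β) (prC (z.res g)) →
    (∀ κ : Option J → ℕ, (∀ j, κ j ≤ N₁) → InjOn g (z.V κ)) ∧
      GeqUp N₁ ((lift I₀ E₀ z₀).map β) (z.res g)

/-- `ζ` lifts `ξ` to the graph at `W` -/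
structure LiftAt (T' : Tgt io A') (N : ℕ) {d : J → ℕ} {I K : Type} [Fintype I] [Field K]
    [Algebra ℂ K] (ξ : Dat (bs io) d I K) (W : RZ ℂ K) {n : ℕ} (ζ : Dat io (exd d n) I K) :
    Prop where
  prj : prD ζ = ξ
  on : (ζ.cfg.red (plV W)).On T'
  tl : TL (exd d n) N (ζ.cfg.red (plV W))
  nrm : ∀ (L : Type) [Field L] [Algebra ℂ L] (α : K →ₐ[ℂ] L) (W' : RZ ℂ L), dn α W' = W →
    ∀ κ : Option J → ℕ, (∀ j, κ j ≤ N) → NrmAt (ζ.map α) W' κ

/-- the datum lifts at every place where it specialises into the target -/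
def Lft (T : Tgt (bs io) A) (T' : Tgt io A') (N : ℕ) {d : J → ℕ} {I K : Type} [Fintype I]
    [Field K] [Algebra ℂ K] (ξ : Dat (bs io) d I K) : Prop :=
  ∀ W : RZ ℂ K, (ξ.cfg.red (plV W)).On T →
    ∃ (n : ℕ) (ζ : Dat io (exd d n) I K), LiftAt T' N ξ W ζ

/-- liftable data exist over a finite extension -/
def LftStmt : Prop :=
  ∀ {J : Type} [Fintype J] [DecidableEq J] {io : Option J → Type} [∀ j, Fintype (io j)]
    [∀ j, DecidableEq (io j)] {A A' : Type} [Fintype A] [Fintype A'] {T : Tgt (bs io) A}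
    {T' : Tgt io A'} {d : J → ℕ} (_ : Gr T T' d) (N : ℕ) {M K : Type} [Fintype M] [Field K]
    [Algebra ℂ K] [Algebra.EssFiniteType ℂ K] (ξ : Dat (bs io) d M K),
    ∃ (L : Type) (_ : Field L) (_ : Algebra ℂ L) (_ : Algebra.EssFiniteType ℂ L) (θ : K →ₐ[ℂ] L)
      (I : Type) (_ : Fintype I) (g : M → I) (η : Dat (bs io) d I L),
      0 < deg θ ∧ η.res g = ξ.map θ ∧ η.NrmUp N ∧ Lft T T' N η

/-- the coefficients of the new forms -/
def coef {d : J → ℕ} {n : ℕ} {I K : Type} [Field K] (η : Dat io (exd d n) I K) :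
    io none × Fin (n + 1) → K := fun x => (η.f none x.1).coeff x.2

/-- linear independence over the image of `α` -/
def LinInd {K L P : Type} [Field K] [Algebra ℂ K] [Field L] [Algebra ℂ L] [Fintype P]
    (α : K →ₐ[ℂ] L) (u : P → L) : Prop := ∀ a : P → K, ∑ x, α (a x) * u x = 0 → a = 0

/-- over `W` the divisor of the new equations is the distance to the lift, in coordinates `c`
which are linear in the coefficients of the new forms -/
def RelStmt : Prop :=
  ∀ {J : Type} [Fintype J] [DecidableEq J] {io : Option J → Type} [∀ j, Fintype (io j)]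
    [∀ j, DecidableEq (io j)] {A A' : Type} [Fintype A] [Fintype A'] {T : Tgt (bs io) A}
    {T' : Tgt io A'} {d : J → ℕ} (_ : Gr T T' d), Nontrivial (io none) → ∃ N₀ : ℕ,
    ∀ {I I' K L : Type} [Fintype I]
    [Fintype I'] [Field K] [Algebra ℂ K] [Field L] [Algebra ℂ L] (n N : ℕ) (α : K →ₐ[ℂ] L)
    (ξ : Dat (bs io) d I K) (W : RZ ℂ K) (ζ : Dat io (exd d n) I K) (η : Dat io (exd d n) I' L)
    (g : I → I'), N₀ ≤ N → LiftAt T' N ξ W ζ → prD (η.res g) = ξ.map α → LinInd α (coef η) →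
    ¬ η.cfg.On T' → ∃ (c : Fin (mp io n + 1) → L)
      (P : Matrix (Fin (mp io n + 1)) (io none × Fin (n + 1)) K)
      (Q : Matrix (io none × Fin (n + 1)) (Fin (mp io n + 1)) K),
      (∀ i, c i = ∑ x, α (P i x) * coef η x) ∧ (∀ x, coef η x = ∑ i, α (Q x i) * c i) ∧
      (∀ i, c i ≠ 0) ∧ ∀ p : RZ ℂ L, dn α p = W →
        ((η.cfg.dv T').val p = 1 ↔ (mxf ℂ c - mxf ℂ fun i => c (Fin.succ i)).val p = 1) ∧
        ((∀ x, W.v x < 1 → p.v (α x) * (mxf ℂ c - mxf ℂ fun i => c (Fin.succ i)).val p < 1) →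
          (η.cfg.dv T').val p = (mxf ℂ c - mxf ℂ fun i => c (Fin.succ i)).val p)

/-- the universal datum with one more factor -/
def UnivStmt : Prop :=
  ∀ {J : Type} [Fintype J] [DecidableEq J] {io : Option J → Type} [∀ j, Fintype (io j)]
    [∀ j, DecidableEq (io j)] {d : J → ℕ} (n N : ℕ), Nontrivial (io none) →
    ∀ {M I K₀ K : Type} [Fintype M] [Fintype I] [Field K₀] [Algebra ℂ K₀]
    [Algebra.EssFiniteType ℂ K₀] [Field K] [Algebra ℂ K] [Algebra.EssFiniteType ℂ K]
    (ξ₀ : Dat (bs io) d M K₀) (θ : K₀ →ₐ[ℂ] K) (ξ : Dat (bs io) d I K) (m : M → I),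
    ξ₀.Univ → 0 < deg θ → ξ.res m = ξ₀.map θ →
    ∃ (L₀ : Type) (_ : Field L₀) (_ : Algebra ℂ L₀) (_ : Algebra.EssFiniteType ℂ L₀) (L : Type)
      (_ : Field L) (_ : Algebra ℂ L) (_ : Algebra.EssFiniteType ℂ L) (θ' : L₀ →ₐ[ℂ] L)
      (α : K →ₐ[ℂ] L) (I' : Type) (_ : Fintype I') (g : I → I') (η : Dat io (exd d n) I' L),
      prD (η.res g) = ξ.map α ∧ η.NrmUp N ∧ Over η (g ∘ m) θ' ∧ 0 < deg θ' ∧
      dim ℂ L = dim ℂ K + mp io n ∧ LinInd α (coef η) ∧
      (deg θ' : ℤ) = deg θ * rn α (List.replicate (mp io n) (mxf ℂ (coef η)))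

end Crest.Agent.X262.Emb
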