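import Crest.Agent.X262.Emb11.Core
import Crest.Agent.X262.Emb40.Val
import Crest.Agent.X262.Emb10.Rel
import Crest.Agent.X262.Emb43.Univ
import Crest.Agent.X262.Emb71.Desc
import Crest.Agent.X262.EmbA.Fin

/-!
# Row 262, road B, EMB (helper11), part 5: `EmbStmt` from `TwoStmt` and `LftStmt`
-/

set_option autoImplicit false

namespace Crest.Agent.X262.Emb

theorem valH (B : Hb.Th) (hB : B.Ax) : ValH B where
  rel α _ hd hm _ _ hV hW τ c hc h := Emb40.val_rel hB α hd hm hV hW τ c hc h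
  far α _ hd hm _ _ hV hW τ h := Emb40.val_far hB α hd hm hV hW τ h
  sm := Emb40.sm_rel
  lin α := Emb40.ring_d α

theorem coreStmt (h : Sym65.TwoStmt) : CoreStmt :=
  coreStmt_of valH h Emb71.descStmt (Emb10.relStmt_of Emb87.propStmt Emb87.bndStmt)

theorem embStmt_of (h : Sym65.TwoStmt) (hL : LftStmt) : EmbStmt :=
  EmbA.embStmt_of_core (coreStmt h) hL Emb43.univStmt

end Crest.Agent.X262.Emb
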