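import Crest.Agent.X262.Emb71.Fn
import Crest.Agent.X262.Vb.Res
import Crest.Agent.X262.Tree87.Ses

/-!
# Row 262, road B, EMB (helper11), part 1: forgetting a factor, norming points, the class `R0`

* `prC` commutes with `gau`, `map`, `red`, `res`; `prD_cfg`, `nrmUp_prD`, `mcls_prF`;
* `nr_of_inj` : norming points;
* `ont_of` : a map given by a homogeneous matrix is onto if the rank does not drop;
* `T0`, `R0` : the relative tangent class of the new factor.
-/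

set_option autoImplicit false
set_option linter.unusedSectionVars false

noncomputable section

namespace Crest.Agent.X262.Emb

open Crest.Agent.X277 Crest.Agent.X277.BD Crest.Agent.X277.Pst Crest.Agent.X277.BD.Cyc Polynomial
open Crest.Agent.X262.Hb Crest.Agent.X262.Vb
open Crest.Agent.X262.Bub96 (hv)
open Crest.Agent.X262.Bub96.Tr (dot)
open Crest.Agent.X262.Tree87 (TL HZ mpL mpL_apply pM)
open Crest.Agent.X262.Node22 (scl chr chr_ne mem_Vt)

section Gen

variable {J : Type} [Fintype J] [DecidableEq J] {io : J → Type} [∀ j, Fintype (io j)]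
  [∀ j, DecidableEq (io j)] {I I₀ K E : Type} [Fintype I] [Fintype I₀] [Field K] [Algebra ℂ K]
  [Field E] [Algebra ℂ E] {z z' : Cfg io I K} {g : I₀ → I} {N : ℕ} {κ : J → ℕ}

theorem geqUp_iff : GeqUp N z z' ↔ Cfg.GeqN N z z' :=
  exists_congr fun _ => and_congr_right fun _ => and_congr_left fun _ => funext_iff.symm

theorem injOn_scl {c : I → K} (hc : ∀ q, c q ≠ 0) {U : Submodule K (I → K)} (h : InjOn g U) :
    InjOn g (sclS c U) := by
  rintro _ ⟨u, hu, rfl⟩ h0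
  rw [h u hu fun q => (mul_eq_zero.1 (h0 q)).resolve_left (hc _), map_zero]

theorem injOn_geq (h : Cfg.Geq z z') (hi : InjOn g (z.V κ)) : InjOn g (z'.V κ) := by
  obtain ⟨c, hc, rfl⟩ := h
  exact injOn_scl (fun q => chr_ne (hc q) κ) hi

theorem finrank_geqN (h : Cfg.GeqN N z z') (hκ : ∀ j, κ j ≤ N) :
    Module.finrank K (z'.V κ) = Module.finrank K (z.V κ) := by
  obtain ⟨c, hc, -, h⟩ := h
  rw [h κ hκ]
  exact finrank_sclS (fun q => chr_ne (hc q) κ) _

theorem finrank_res (h : InjOn g (z.V κ)) :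
    Module.finrank K ((z.res g).V κ) = Module.finrank K (z.V κ) :=
  Bub96.finrank_map_of_inj _ _ fun u hu h0 => h u hu (congrFun h0)

theorem finrank_red (z : Cfg io I K) (p : Pl ℂ K ℂ E) (κ : J → ℕ) :
    Module.finrank E ((z.red p).V κ) = Module.finrank K (z.V κ) :=
  (finrank_redS p _).trans (finrank_sclS (fun q => chr_ne (Cfg.nrm_ne _ z q) κ) _)

theorem v_chr_nrm (V : RZ ℂ K) (z : Cfg io I K) (q : I) (κ : J → ℕ) :
    V.v (chr (z.nrm V q) κ) = ((lw κ (z.y q)).val V)⁻¹ := by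
  rw [chr, map_prod, val_lw, ← Finset.prod_inv_distrib]
  exact Finset.prod_congr rfl fun j _ => by rw [map_pow, Cfg.nrm, map_inv₀, v_gen, inv_pow]

theorem nr_of_inj (hz : z.NZ) (h : ∀ U : RZ ℂ K, InjOn g ((z.red (plV U)).V κ)) : z.Nr g κ :=
  Cfg.nr_iff.2 fun U => (Cfg.nrAt_of_inj (Cfg.pr_nrm hz U) (h U)).geq (hz.gau (Cfg.nrm_ne U z))
    (Cfg.geq_gau z (Cfg.nrm_ne U z)).symm

/-! ### maps given by homogeneous matrices -/

variable {P Q : Type} [Fintype P] [Fintype Q] {kk : P → J → ℕ} {k2 : Q → J → ℕ}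
  {ψ : Q → P → MvPolynomial (Vr io) ℂ}

theorem mpL_gau (hψ : HZ k2 kk ψ) {c : I → J → K} (hc : ∀ q j, c q j ≠ 0) (z : Cfg io I K)
    (σ : P × I → K) : mpL ψ (z.gau c) (fun x => chr (c x.2) (kk x.1) * σ x) =
      fun x => chr (c x.2) (k2 x.1) * mpL ψ z σ x := by
  funext x
  rw [mpL_apply, mpL_apply, Finset.mul_sum]
  refine Finset.sum_congr rfl fun b _ => ?_
  rw [← mul_assoc, ← mul_assoc]
  exact congrArg (· * σ (b, x.2)) (hψ.pM_scl (hc x.2) (z.y x.2) x.1 b)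

theorem mpL_red0 {p : LP K E} (hz : z.Pr p.V) {σ : P × I → K} (hσ : ∀ x, σ x ∈ p.V.1)
    (x : Q × I) : mpL ψ z σ x ∈ p.V.1 ∧
      p.r (mpL ψ z σ x) = mpL ψ (z.red0 p.toPl) (fun x => p.r (σ x)) x := by
  have h1 : ∀ b, pv (z.y x.2) (ψ x.1 b) ∈ p.V.1 := fun b => pv_mem (fun j => (hz x.2 j).1) _
  rw [mpL_apply, mpL_apply, Tree87.r_sum _ fun b _ => mul_mem (h1 b) (hσ _)]
  refine ⟨sum_mem fun b _ => mul_mem (h1 b) (hσ _), Finset.sum_congr rfl fun b _ => ?_⟩
  rw [Pl.r_mul (h1 b) (hσ _), r_pv p.lnr fun j => (hz x.2 j).1]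
  rfl

theorem nm_le_iff {V : RZ ℂ K} {σ : P × I → K} :
    nm (fun x : P × I => lw (kk x.1) (z.y x.2)) V σ ≤ 1 ↔
      ∀ x, chr (z.nrm V x.2) (kk x.1) * σ x ∈ V.1 := by
  rw [nm_le]
  refine forall_congr' fun x => ?_
  rw [← RZ.le_one_iff, map_mul, v_chr_nrm, one_mul, inv_mul_le_iff₀ (val_pos _ _), mul_one]

theorem nm_mpL_le (hψ : HZ k2 kk ψ) (hz : z.NZ) (V : RZ ℂ K) (σ : P × I → K) :
    nm (fun x : Q × I => lw (k2 x.1) (z.y x.2)) V (mpL ψ z σ) ≤
      nm (fun x : P × I => lw (kk x.1) (z.y x.2)) V σ :=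
  nm_le_of_one (U := ⊤) (fun σ _ h => nm_le_iff.2 fun x => by
    rw [← congrFun (mpL_gau hψ (Cfg.nrm_ne V z) z σ) x]
    exact (mpL_red0 (p := LP.at V) (Cfg.pr_nrm hz V) (nm_le_iff.1 h) x).1) trivial

theorem ont_of (hψ : HZ k2 kk ψ) (hz : z.NZ) {U : Submodule K (P × I → K)}
    (h : ∀ V : RZ ℂ K, Module.finrank K (U.map (mpL ψ z)) ≤ Module.finrank (Rf V)
      ((redS (plV V) (sclS (fun x => chr (z.nrm V x.2) (kk x.1)) U)).map
        (mpL ψ (z.red (plV V))))) :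
    Ont (fun x : P × I => lw (kk x.1) (z.y x.2)) (fun x : Q × I => lw (k2 x.1) (z.y x.2))
      (mpL ψ z) U where
  le V σ _ := nm_mpL_le hψ hz V σ
  sur V σ hσ := by
    refine sur_of_rank (p := LP.at V) (g := fun x => (chr (z.nrm V x.2) (k2 x.1))⁻¹)
      (fun x => by rw [map_inv₀]; exact inv_eq_iff_eq_inv.2 (v_chr_nrm V z _ _))
      (fun σ _ => nm_mpL_le hψ hz V σ) ((h V).trans (Submodule.finrank_mono ?_)) hσ
    rw [Submodule.map_le_iff_le_comap]
    refine redS_le ?_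
    rintro _ ⟨u, hu, rfl⟩ hi
    refine Submodule.subset_span ⟨u, hu, nm_le_iff.2 hi, _root_.funext fun x => ?_⟩
    rw [div_inv_eq_mul, mul_comm, ← congrFun (mpL_gau hψ (Cfg.nrm_ne V z) z u) x]
    exact ((mpL_red0 (p := LP.at V) (Cfg.pr_nrm hz V) hi x).2).symm

end Gen

variable {J : Type} [Fintype J] [DecidableEq J] {io : Option J → Type} [∀ j, Fintype (io j)]
  [∀ j, DecidableEq (io j)] {A A' : Type} [Fintype A] [Fintype A']
  {I I₀ M K E : Type} [Fintype I] [Fintype I₀] [Field K] [Algebra ℂ K] [Field E] [Algebra ℂ E]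
  {z z' : Cfg io I K} {g : I₀ → I} {N n : ℕ} {d : J → ℕ}

theorem exd_le {κ : J → ℕ} (hκ : ∀ j, κ j ≤ N) : ∀ j, exd κ 0 j ≤ N
  | none => Nat.zero_le _
  | some j => hκ j

theorem dot_exd (κ d : J → ℕ) (m n : ℕ) : dot (exd κ m) (exd d n) = m * n + dot κ d :=
  Fintype.sum_option _

theorem dot_exd0 (κ d : J → ℕ) (n : ℕ) : dot (exd κ 0) (exd d n) = dot κ d := by
  rw [dot_exd, zero_mul, zero_add]

theorem dot_none (d : J → ℕ) (n : ℕ) : dot (Pi.single none 1) (exd d n) = n := by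
  simp [dot, Fintype.sum_option, exd]

theorem lw_exd (κ : J → ℕ) (y : Pnt io K) : lw (exd κ 0) y = lw κ (prP y) := by
  rw [lw, Fintype.sum_option]
  exact (congrArg (· + _) (zero_nsmul _)).trans (zero_add _)

theorem chr_exd (c : Option J → K) (κ : J → ℕ) :
    chr c (exd κ 0) = chr (fun j => c (some j)) κ := by
  rw [chr, Fintype.prod_option]
  exact (congrArg (· * _) (pow_zero _)).trans (one_mul _)

theorem prC_gau (c : I → Option J → K) (z : Cfg io I K) :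
    prC (z.gau c) = (prC z).gau fun q j => c q (some j) :=
  Cfg.ext (fun _ => rfl) fun κ => congrArg (sclS · _) (_root_.funext fun q => chr_exd (c q) κ)

theorem prC_red (p : Pl ℂ K ℂ E) (z : Cfg io I K) : prC (z.red p) = (prC z).red p :=
  congrArg (Cfg.red0 p) (prC_gau (z.nrm p.V) z)

theorem prC_res (g : I₀ → I) (z : Cfg io I K) : prC (z.res g) = (prC z).res g := rfl

theorem nz_prC (h : z.NZ) : (prC z).NZ := fun q j => h q (some j)

theorem prD_cfg (η : Dat io (exd d n) I K) : (prD η).cfg = prC η.cfg :=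
  Cfg.ext (fun _ => rfl) fun κ => by
    change Submodule.map ((prD η).evl (dot κ d)) (degreeLE K (dot κ d : ℕ)) =
      Submodule.map (η.evl (dot (exd κ 0) (exd d n))) (degreeLE K (dot (exd κ 0) (exd d n) : ℕ))
    rw [dot_exd0]
    rfl

omit [Fintype I] in
theorem nrmUp_prD {η : Dat io (exd d n) I K} (h : η.NrmUp N) : (prD η).NrmUp N := by
  intro κ hκ L _ _ α W σ hσ h1 t
  have := h (exd κ 0) (exd_le hκ) L α W σ
  simp only [dot_exd0, lw_exd] at this
  exact this hσ h1 t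

variable {T : Tgt (bs io) A} {T' : Tgt io A'} {B : Th}

theorem on_prC (G : Gr T T' d) (h : z.On T') : (prC z).On T := fun q => Emb71.on_prP G (h q)

theorem mcls_prF (G : Gr T T' d) {Φ : MFam B (bs io) M} (h : MCls B T Φ) :
    MCls B T' (prF Φ) where
  scl E _ _ _ y c h1 h2 h3 := h.scl E (fun q => prP (y q)) (fun q j => c q (some j))
    (fun q j => h1 q (some j)) (fun q j => h2 q (some j)) fun q => Emb71.on_prP G (h3 q)
  nat K E _ _ _ _ _ _ p y h1 h2 := h.nat K E p (fun q => prP (y q)) (fun q j => h1 q (some j))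
    fun q => Emb71.on_prP G (h2 q)

theorem evF_prF (z : Cfg io I K) (m : M → I) (Φ : MFam B (bs io) M) :
    evF z m (prF Φ) = evF (prC z) m Φ := rfl

variable {r : A → A' → MvPolynomial (Vr io) ℂ}

theorem ea_prC (T : Tgt (bs io) A) (z : Cfg io I K) :
    (prC z).ea T = fun x => lw (exd (T.k x.1) 0) (z.y x.2) :=
  _root_.funext fun _ => (lw_exd _ _).symm

theorem sv_prC (hr : IsR T T' r) (z : Cfg io I K) : (prC z).sv T = mpL r z (z.sv T') := by
  funext x
  rw [mpL_apply]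
  change pv (prP (z.y x.2)) (T.F x.1) = _
  rw [← Emb71.pv_upq, hr.2, pv, map_sum]
  exact Finset.sum_congr rfl fun b _ => map_mul _ _ _

theorem dv_le (G : Gr T T' d) (hr : IsR T T' r) (hz : z.NZ) (h : ¬ (prC z).On T) :
    z.dv T' ≤ (prC z).dv T := fun V => by
  rw [Cfg.val_dv T h, Cfg.val_dv T' fun h0 => h (on_prC G h0)]
  refine inv_anti₀ (nm_pos fun h0 => h ((Cfg.on_iff T).2 h0)) ?_
  rw [ea_prC, sv_prC hr]
  exact nm_mpL_le hr.1 hz V _

/-! ### the relative tangent class -/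

variable (io) in
/-- the new coordinates as equations -/
def T0 : Tgt io (io none) where
  F a := MvPolynomial.X ⟨none, a⟩
  k _ := Pi.single none 1
  hom _ := MvPolynomial.isWeightedHomogeneous_X _ _ _

theorem sv_T0 (z : Cfg io I K) (x : io none × I) : z.sv (T0 io) x = z.y x.2 none x.1 :=
  MvPolynomial.aeval_X _ _

theorem k_T0 (hN : 1 ≤ N) (a : io none) (j : Option J) : (T0 io).k a j ≤ N := by
  change (Pi.single none 1 : Option J → ℕ) j ≤ N
  rw [Pi.single_apply]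
  split_ifs <;> omega

variable (B) in
/-- the Chern polynomial of the sections of the relative tangent bundle -/
def R0 (z : Cfg io I K) : (B.H K)[X] := B.cp2 (z.ea (T0 io)) (K ∙ z.sv (T0 io)) (z.Vt (T0 io))

section R0

variable (hB : B.Ax) [Algebra.EssFiniteType ℂ K]
include hB

theorem R0_geq (h : Cfg.Geq z z') (hz : z.NZ) (hs : z.sv (T0 io) ∈ z.Vt (T0 io)) :
    R0 B z' = R0 B z := by
  obtain ⟨c, hc, rfl⟩ := h
  rw [R0, R0, Cfg.Vt_gau _ hc, ← hB.cp2_dia (fun x : io none × I => chr_ne (hc x.2) _)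
    (congrFun (Cfg.ea_gau (T0 io) hz hc)) ((Submodule.span_singleton_le_iff_mem _ _).2 hs),
    Submodule.map_span, Set.image_singleton, Cfg.sv_gau]
  rfl

theorem R0_geqN (hN : 1 ≤ N) (h : Cfg.GeqN N z z') (hz : z.NZ)
    (hs : z.sv (T0 io) ∈ z.Vt (T0 io)) : R0 B z' = R0 B z := by
  have h1 : ∀ w : Cfg io I K, R0 B (w.tr N) = R0 B w := fun w => by
    rw [R0, Cfg.Vt_tr (k_T0 hN)]
    rfl
  rw [← h1, ← h1 z]
  exact R0_geq hB (Cfg.geqN_iff.1 h) hz (by rwa [Cfg.Vt_tr (k_T0 hN)])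

theorem R0_res (h : z.Nr g (Pi.single none 1)) (hs : z.sv (T0 io) ∈ z.Vt (T0 io)) :
    R0 B (z.res g) = R0 B z := by
  rw [R0, R0, Cfg.Vt_res, ← hB.cp2_iso (φ := LinearMap.funLeft K K (Prod.map id g))
    ((Submodule.span_singleton_le_iff_mem _ _).2 hs)
    fun V σ hσ => Cfg.nm_res (T := T0 io) (fun _ => h) hσ V, Submodule.map_span,
    Set.image_singleton]
  rfl

variable [Algebra.EssFiniteType ℂ E]

theorem R0_red0 {p : LP K E} (hz : z.Pr p.V) (hs : z.sv (T0 io) ∈ z.Vt (T0 io)) :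
    R0 B (z.red0 p.toPl) = (R0 B z).map (B.pb p : B.H K →+* B.H E) := by
  have h1 : Itg p (z.sv (T0 io)) := hz.sv_mem _
  have h2 : rd p (K ∙ z.sv (T0 io)) = E ∙ (z.red0 p.toPl).sv (T0 io) := by
    rw [Cfg.sv_red0 _ p.lnr hz]
    by_cases h0 : z.sv (T0 io) = 0
    · simp [h0, rd_bot, ← Pi.zero_def]
    · obtain ⟨x, -⟩ := Function.ne_iff.1 h0
      obtain ⟨i, hi⟩ := (hz x.2 none).2
      have h3 : rv p (z.sv (T0 io)) ∉ rd p ⊥ := fun h => by
        rw [rd_bot, Submodule.mem_bot] at h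
        exact Pl.r_ne_zero_iff.2 ((congrArg _ (sv_T0 z (i, x.2))).trans hi) (congrFun h (i, x.2))
      have := rd_sup h1 h3
      rwa [rd_bot, bot_sup_eq, bot_sup_eq] at this
  rw [R0, R0, hB.cp2_rd (hz.val_ea _) ((Submodule.span_singleton_le_iff_mem _ _).2 hs), h2, rd_eq,
    Cfg.redS_Vt, Cfg.ea_red0 _ hz]

theorem R0_red (p : LP K E) (hz : z.NZ) (hM : z.Mul) :
    R0 B (z.red p.toPl) = (R0 B z).map (B.pb p : B.H K →+* B.H E) := by
  rw [← R0_geq hB (Cfg.geq_gau z (Cfg.nrm_ne p.V z)) hz (hM.sv_mem _)]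
  exact R0_red0 hB (Cfg.pr_nrm hz _) ((hM.gau _).sv_mem _)

theorem R0_map (α : K →ₐ[ℂ] E) (hz : z.NZ) (hs : z.sv (T0 io) ∈ z.Vt (T0 io)) :
    R0 B (z.map α) = (R0 B z).map (B.pb (LP.hom α) : B.H K →+* B.H E) := by
  rw [← Cfg.red0_hom]
  exact R0_red0 hB (Cfg.pr_hom α hz) hs

end R0

end Crest.Agent.X262.Emb
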