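import Crest.Agent.X262.Emb11.Defs
import Crest.Agent.X262.Sym65.Defs

/-!
# Row 262, road B, EMB (helper11): the field-level statement `CoreStmt`
-/

set_option autoImplicit false

noncomputable section

namespace Crest.Agent.X262.Emb

open Crest.Agent.X277 Crest.Agent.X277.BD Crest.Agent.X277.Pst Crest.Agent.X277.BD.Cyc
open Crest.Agent.X262.Hb Crest.Agent.X262.Vb
open Crest.Agent.X262.Div (rn)
open Crest.Agent.X262.Sym65 (sm)

/-- the virtual number of the graph in degree `n` collects the components of new degree `n` -/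
def CoreStmt : Prop :=
  ∀ (B : Th), B.Ax → ∀ {J : Type} [Fintype J] [DecidableEq J] {io : Option J → Type}
    [∀ j, Fintype (io j)] [∀ j, DecidableEq (io j)] {A A' : Type} [Fintype A] [Fintype A']
    {T : Tgt (bs io) A} {T' : Tgt io A'} {d : J → ℕ} (_ : Gr T T' d) (c : ℕ),
    Nontrivial (io none) → Good T c d →
    ∃ nw : ∀ (I E : Type) [Field E] [Algebra ℂ E], Cfg (bs io) I E → ℕ,
    (∃ N₀ n₀ : ℕ, ∀ N, N₀ ≤ N → ∀ {I K : Type} [Fintype I] [Field K] [Algebra ℂ K]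
      (ξ : Dat (bs io) d I K), Lft T T' N ξ → ∀ W : RZ ℂ K, (ξ.cfg.red (plV W)).On T →
      nw I (Rf W) (ξ.cfg.red (plV W)) ≤ n₀) ∧
    ∀ n, Good T' (cp' io c) (exd d n) → ∃ N₀ : ℕ, ∀ N, N₀ ≤ N → ∀ {I I' M K L : Type} [Fintype I]
      [Fintype I'] [Field K] [Algebra ℂ K] [Algebra.EssFiniteType ℂ K] [Field L] [Algebra ℂ L]
      [Algebra.EssFiniteType ℂ L] (ξ : Dat (bs io) d I K) (α : K →ₐ[ℂ] L)
      (η : Dat io (exd d n) I' L) (g : I → I') (m : M → I) (Φ : MFam B (bs io) M), MCls B T Φ →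
      ξ.NrmUp N → Lft T T' N ξ → ¬ ξ.cfg.On T → prD (η.res g) = ξ.map α → η.NrmUp N →
      dim ℂ L = dim ℂ K + mp io n → LinInd α (coef η) →
      vir B T' η.cfg (g ∘ m) (prF Φ) = rn α (List.replicate (mp io n) (mxf ℂ (coef η))) *
        sm (ξ.cfg.dv T) fun W => if nw I (Rf W) (ξ.cfg.red (plV W)) = n then
          B.itg (Rf W) (trm B T ξ.cfg m Φ W) else 0

end Crest.Agent.X262.Emb
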