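import Crest.Agent.X262.Emb11.Cr
import Crest.Agent.X262.Emb11.Def2
import Crest.Agent.X262.Emb87.Main

/-!
# Row 262, road B, EMB (helper11), part 4: the field-level statement
-/

set_option autoImplicit false
set_option linter.unusedSectionVars false

noncomputable section

namespace Crest.Agent.X262.Emb

open Crest.Agent.X277 Crest.Agent.X277.BD Crest.Agent.X277.Pst Crest.Agent.X277.BD.Cyc Polynomial
open Crest.Agent.X262.Geo (od od_eq_zero essFT_Rf dim_Rf')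
open Crest.Agent.X262.Hb Crest.Agent.X262.Vb
open Crest.Agent.X262.Val40 (dn rf rf_r)
open Crest.Agent.X262.Div (rn cw)
open Crest.Agent.X262.Sym65 (cf qv sm i1 i2 Liv LivX Sup TwoStmt)
open List (replicate)

open Classical in
/-- the fibrewise computation -/
structure ValH (B : Th) : Prop where
  rel : ∀ {K L : Type} [Field K] [Algebra ℂ K] [Algebra.EssFiniteType ℂ K] [Field L] [Algebra ℂ L]
    [Algebra.EssFiniteType ℂ L] (α : K →ₐ[ℂ] L) {m : ℕ}, dim ℂ L = dim ℂ K + m → 1 ≤ m →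
    ∀ (H : BD ℂ L) {V : RZ ℂ L}, Dvs V → Dvs (dn α V) → ∀ (τ : B.H (Rf (dn α V)))
    (c : Fin (m + 1) → L), (∀ i, c i ≠ 0) → (∀ p : RZ ℂ L, dn α p = dn α V →
      (H.val p = 1 ↔ (mxf ℂ c - mxf ℂ fun i => c (Fin.succ i)).val p = 1) ∧
      ((∀ x, (dn α V).v x < 1 → p.v (α x) * (mxf ℂ c - mxf ℂ fun i => c (Fin.succ i)).val p < 1) →
        H.val p = (mxf ℂ c - mxf ℂ fun i => c (Fin.succ i)).val p)) →
    (if H.val V = 1 then (-1) ^ (m + 1) * B.itg (Rf V)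
      (B.c1 ((plV V).res H) ^ m * B.pb (LP.hom (rf α V)) τ) else 0) =
      cw α (replicate m (mxf ℂ c)) V * B.itg (Rf (dn α V)) τ
  far : ∀ {K L : Type} [Field K] [Algebra ℂ K] [Algebra.EssFiniteType ℂ K] [Field L] [Algebra ℂ L]
    [Algebra.EssFiniteType ℂ L] (α : K →ₐ[ℂ] L) {m : ℕ}, dim ℂ L = dim ℂ K + m → 1 ≤ m →
    ∀ (H : BD ℂ L) {V : RZ ℂ L}, Dvs V → Dvs (dn α V) → ∀ (τ : B.H (Rf (dn α V))),
    (∀ p : RZ ℂ L, dn α p = dn α V → H.val p = 1) →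
    B.itg (Rf V) (B.c1 ((plV V).res H) ^ m * B.pb (LP.hom (rf α V)) τ) = 0
  sm : ∀ {K L : Type} [Field K] [Algebra ℂ K] [Algebra.EssFiniteType ℂ K] [Field L] [Algebra ℂ L]
    [Algebra.EssFiniteType ℂ L] (α : K →ₐ[ℂ] L) (l : RZ ℂ K → List (BD ℂ L)) (ρ : ℤ) (a : BD ℂ K)
    (g : RZ ℂ K → ℂ) (g' : RZ ℂ L → ℂ),
    (∀ W, Dvs W → od W a ≠ 0 → g W ≠ 0 → rn α (l W) = ρ) →
    (∀ V, Dvs V → Dvs (dn α V) → od (dn α V) a ≠ 0 → g' V = cw α (l (dn α V)) V * g (dn α V)) →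
    sm (pb α a) g' = ρ * sm a g
  lin : ∀ {K L : Type} [Field K] [Algebra ℂ K] [Field L] [Algebra ℂ L] [Algebra.EssFiniteType ℂ L]
    (α : K →ₐ[ℂ] L) {ι X : Type} [Fintype ι] [Fintype X] {c : ι → L} {u : X → L} {P : ι → X → K}
    {Q : X → ι → K}, (∀ i, c i = ∑ x, α (P i x) * u x) → (∀ x, u x = ∑ i, α (Q x i) * c i) →
    u ≠ 0 → ∀ m : ℕ, rn α (replicate m (mxf ℂ c)) = rn α (replicate m (mxf ℂ u))

variable {J : Type} [Fintype J] [DecidableEq J] {io : Option J → Type} [∀ j, Fintype (io j)]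
  [∀ j, DecidableEq (io j)] {A A' : Type} [Fintype A] [Fintype A']
  {I I' M K L : Type} [Fintype I] [Fintype I'] [Field K] [Algebra ℂ K] [Field L] [Algebra ℂ L]
  {N n : ℕ} {d : J → ℕ} {T : Tgt (bs io) A} {T' : Tgt io A'} {B : Th}
  {r : A → A' → MvPolynomial (Vr io) ℂ}
  {lf : ∀ (I E : Type) [Field E] [Algebra ℂ E], Cfg (bs io) I E → Cfg io I E}

theorem one_le_mp [Nontrivial (io none)] (n : ℕ) : 1 ≤ mp io n := by
  have := Nat.mul_le_mul (Fintype.one_lt_card (α := io none)) (Nat.le_add_left 1 n)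
  rw [mp]
  omega

namespace Sit

variable {ξ : Dat (bs io) d I K} {α : K →ₐ[ℂ] L} {η : Dat io (exd d n) I' L} {g : I → I'}
  (h : Sit N T T' B r lf ξ α η g)
include h

theorem not_on (hO : ¬ ξ.cfg.On T) : ¬ (prC η.cfg).On T := fun h0 =>
  hO ((Cfg.on_map T α).1 (h.res_eq ▸ fun q => h0 (g q)))

variable (hB : B.Ax) [Algebra.EssFiniteType ℂ K] [Algebra.EssFiniteType ℂ L] {m : M → I}
  {Φ : MFam B (bs io) M}
include hB

open Classical in
theorem vir_eq (h2 : TwoStmt) (hP : PropStmt) (G : Gr T T' d) (hΦ : MCls B T Φ) (hR : Rk T' η.cfg)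
    (hO : ¬ ξ.cfg.On T) (hm : 1 ≤ mp io n) (hd : dim ℂ L = dim ℂ K + mp io n) :
    vir B T' η.cfg (g ∘ m) (prF Φ) = sm (pb α (ξ.cfg.dv T)) fun V =>
      if (η.cfg.dv T').val V = 1 then (-1) ^ (mp io n + 1) * B.itg (Rf V)
        (B.c1 ((plV V).res (η.cfg.dv T')) ^ mp io n *
          B.pb (LP.hom (rf α V)) (trm B T ξ.cfg m Φ (dn α V))) else 0 := by
  have h0 := h.not_on hO
  have h3 := dv_le G h.loc.isR η.cfg_nz h0
  have h4 := Cfg.dv_nonneg T' η.cfg_nz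
  have h5 := Sym65.sup_mono h4 h3
  have h6 := h5.trans (sup_sub h.rk1.nz)
  have h7 := h2 B hB ((prC η.cfg).dv T) (η.cfg.dv T') (cpF B T (prC η.cfg)) (RF B η.cfg)
    (evF (prC η.cfg) (g ∘ m) Φ) (h4.trans h3) h4
  rw [inf_eq_right.2 h3] at h7
  have h8 := h7 ((h.rk1.livX hB).mono h6) (LivX.glob hB _) ((liv_evF hΦ h.rk1.nz _).mono h6)
    (fun E _ _ _ p hp => h.rk1.root' hB (h5 hp)) fun E _ _ _ p hp hlt => by
      have := h.loc.root hB hP G hR h0 (tla_red h.ne p) (Cfg.on_red_of T' p.lnr η.cfg_nz hp) hlt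
      rwa [R0_red hB p η.cfg_nz η.cfg_mul] at this
  rw [vir_eq_sm, ← h.dv]
  refine Eq.trans (sm_congr fun W hW h9 => ?_) (h8.trans (Sym65.sm_congr fun V hV h9 => ?_))
  · have := essFT_Rf hW
    have h10 := h.loc.whit hB hP (tla_red h.ne (LP.at W)) (on_at η.cfg_nz h9)
    rw [prC_red, R0_red hB _ η.cfg_nz η.cfg_mul] at h10
    exact congrArg (fun f : (B.H (Rf W))[X] => B.itg _ ((-f.divX).eval _ * _)) h10
  · exact h.term hB G hΦ hm hd hV (Div.dvs_dn_of_od hV (h.dv ▸ h9))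
      (sup_sub h.rk1.nz ((od_eq_zero hV).not.1 h9))

end Sit

theorem coreStmt_of (hV : ∀ B : Th, B.Ax → ValH B) (h2 : TwoStmt) (hD : DescStmt) (hR : RelStmt) :
    CoreStmt := by
  intro B hB J _ _ io _ _ A A' _ _ T T' d G c hn hT
  obtain ⟨lf, hlf⟩ := hD G
  obtain ⟨N₁, h1⟩ := hlf 1
  have hdsc : ∀ N, N₁ ≤ N → Dsc N d T' lf := fun N hN _ _ _ _ _ _ _ _ _ _ n z g z₀ β =>
    h1 n N z g z₀ β hN
  refine ⟨fun I E _ _ z => Module.finrank E ((lf I E z).V (Pi.single none 1)) - 1, ?_,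
    fun n hT' => ?_⟩
  · obtain ⟨n₀, h3⟩ := Emb87.bndStmt G
    obtain ⟨N₂, h4⟩ := exists_bd T'
    refine ⟨N₁ + N₂ + 1, n₀, fun N hN I K _ _ _ ξ hL W hW => ?_⟩
    obtain ⟨n, ζ, hζ⟩ := hL W hW
    exact (Dsc.rank_lift (hdsc N (by omega)) (by omega) hζ).trans_le
      (h3 n N _ (fun a j => (h4 a j).trans (by omega)) hζ.tl hζ.on).1
  obtain ⟨r, hr⟩ := Emb87.exists_isR G.idF
  obtain ⟨N₂, h3⟩ := exists_loc Emb87.exactStmt G hr hT hT'
  obtain ⟨N₃, h4⟩ := hT.rk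
  obtain ⟨N₄, h5⟩ := hT'.rk
  obtain ⟨N₅, h6⟩ := hT.res hB
  obtain ⟨N₆, h7⟩ := hR G hn
  refine ⟨N₁ + N₂ + N₃ + N₄ + N₅ + N₆, fun N hN I I' M K L _ _ _ _ _ _ _ _ ξ α η g m Φ hΦ nx hL hO
    pr ne hd hI => ?_⟩
  obtain ⟨h8, h9, -⟩ := h6 (prD η) g (show (prD (η.res g)).NrmUp N₅ from
    pr ▸ Vb37.nrmUp_map (Vb37.nrmUp_mono nx (by omega)) α)
  rw [show (prD η).res g = ξ.map α from pr, Vb37.cfg_map, prD_cfg] at h8 h9
  have h : Sit N T T' B r lf ξ α η g := ⟨nx, pr, ne, h3 N (by omega), hdsc N (by omega),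
    h4 ξ (Vb37.nrmUp_mono nx (by omega)),
    prD_cfg η ▸ h4 _ (Vb37.nrmUp_mono (nrmUp_prD ne) (by omega)),
    h8.symm.trans (Cfg.dv_map T α _), h9⟩
  have hm := one_le_mp (io := io) n
  classical
  have key : ∀ W : RZ ℂ K, ∃ l : List (BD ℂ L), Dvs W → od W (ξ.cfg.dv T) ≠ 0 →
      (Module.finrank (Rf W) ((lf I (Rf W) (ξ.cfg.red (plV W))).V (Pi.single none 1)) - 1 = n →
        rn α l = rn α (replicate (mp io n) (mxf ℂ (coef η)))) ∧
      ∀ V, Dvs V → dn α V = W → (if (η.cfg.dv T').val V = 1 then (-1) ^ (mp io n + 1) *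
        B.itg (Rf V) (B.c1 ((plV V).res (η.cfg.dv T')) ^ mp io n *
          B.pb (LP.hom (rf α V)) (trm B T ξ.cfg m Φ (dn α V))) else 0) =
        cw α l V * if Module.finrank (Rf W) ((lf I (Rf W) (ξ.cfg.red (plV W))).V
          (Pi.single none 1)) - 1 = n then B.itg (Rf W) (trm B T ξ.cfg m Φ W) else 0 := by
    intro W
    by_cases hW : Dvs W ∧ od W (ξ.cfg.dv T) ≠ 0
    swap
    · exact ⟨[], fun a b => (hW ⟨a, b⟩).elim⟩
    obtain ⟨n', ζ, hζ⟩ := hL W (on_at ξ.cfg_nz ((od_eq_zero hW.1).not.1 hW.2))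
    rw [Dsc.rank_lift h.dsc h.one_le hζ]
    by_cases e : n' = n
    · subst e
      obtain ⟨c, P, Q, c1, c2, c3, c4⟩ := h7 n' N α ξ W ζ η g (by omega) hζ pr hI
        fun h0 => h.not_on hO (on_prC G h0)
      refine ⟨replicate (mp io n') (mxf ℂ c), fun _ _ => ⟨fun _ => (hV B hB).lin α c1 c2
        (fun h0 => c3 0 (by simp [c1, h0])) _, fun V hV' e => ?_⟩⟩
      subst e
      rw [if_pos rfl]
      exact (hV B hB).rel α hd hm _ hV' hW.1 _ c c3 c4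
    · refine ⟨[], fun _ _ => ⟨fun h0 => (e h0).elim, fun V hV' e' => ?_⟩⟩
      have h10 : ∀ p : RZ ℂ L, dn α p = W → (η.cfg.dv T').val p = 1 := fun p hp => by
        subst hp
        by_contra h11
        exact e ((Dsc.rank_lift h.dsc h.one_le hζ).symm.trans (h.rank (p := LP.at p)
          (p₀ := LP.at (dn α p)) (β := rf α p) (on_at η.cfg_nz h11)
          (LP.ext fun x => by simpa [LP.at_toPl] using (rf_r α p x).symm)))
      subst e'
      rw [if_neg e, if_pos (h10 V rfl), (hV B hB).far α hd hm _ hV' hW.1 _ h10, mul_zero, mul_zero]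
  choose l hl using key
  rw [h.vir_eq hB h2 Emb87.propStmt G hΦ (h5 η (Vb37.nrmUp_mono ne (by omega))) hO hm hd]
  refine (hV B hB).sm α l _ _ _ _ (fun W a b e => (hl W a b).1 ?_) fun V a b e =>
    (hl _ b e).2 V a rfl
  by_contra h0
  exact e (if_neg h0)

end Crest.Agent.X262.Emb
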