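import Crest.Agent.X262.Emb11.Wh
import Crest.Agent.X262.Vb37.Mob
import Crest.Agent.X262.Tr89.Fib

/-!
# Row 262, road B, EMB (helper11), part 3: descent of the classes to the old moduli

* `Dsc`, `Sit` : the situation;  `Sit.R0_desc`, `Sit.tau`, `Sit.rank`;
* `Sit.low`  : only the leading coefficient of `R0` contributes;
* `Sit.term` : the contribution of a component of the pulled back divisor.
-/

set_option autoImplicit false
set_option linter.unusedSectionVars false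

noncomputable section

namespace Crest.Agent.X262.Emb

open Crest.Agent.X277 Crest.Agent.X277.BD Crest.Agent.X277.Pst Crest.Agent.X277.BD.Cyc Polynomial
open Crest.Agent.X262.Geo (od od_eq_zero essFT_Rf dim_Rf')
open Crest.Agent.X262.Hb Crest.Agent.X262.Vb
open Crest.Agent.X262.Tree87 (TL)
open Crest.Agent.X262.Val40 (dn rf rf_r mem_dn dim_rf dvs_dn)
open Crest.Agent.X262.Sym65 (PF PX cf qv sm i1 i2 Liv Sup)

variable {J : Type} [Fintype J] [DecidableEq J] {io : Option J → Type} [∀ j, Fintype (io j)]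
  [∀ j, DecidableEq (io j)] {A A' : Type} [Fintype A] [Fintype A']
  {I I' M K L E E₀ : Type} [Fintype I] [Fintype I'] [Field K] [Algebra ℂ K] [Field L] [Algebra ℂ L]
  [Field E] [Algebra ℂ E] [Field E₀] [Algebra ℂ E₀]
  {N n : ℕ} {d : J → ℕ} {T : Tgt (bs io) A} {T' : Tgt io A'} {B : Th}
  {r : A → A' → MvPolynomial (Vr io) ℂ}
  {lf : ∀ (I E : Type) [Field E] [Algebra ℂ E], Cfg (bs io) I E → Cfg io I E}

theorem itg_low (hB : B.Ax) [Algebra.EssFiniteType ℂ E₀] [Algebra.EssFiniteType ℂ E]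
    (β : E₀ →ₐ[ℂ] E) (f : (B.H E₀)[X]) (τ : B.H E₀) (b : BD ℂ E) {m : ℕ} {F : (B.H E)[X]}
    (hF : F = f.map (B.pb (LP.hom β) : B.H E₀ →+* B.H E)) (h1 : F.coeff (m + 1) = (-1) ^ (m + 1))
    (h2 : ∀ i, m + 1 < i → F.coeff i = 0) (hd : m + dim ℂ E₀ ≤ dim ℂ E) :
    B.itg E ((-F.divX).eval (B.c1 b) * B.pb (LP.hom β) τ) =
      (-1) ^ m * B.itg E (B.c1 b ^ m * B.pb (LP.hom β) τ) := by
  have h3 : (-F.divX).natDegree < m + 1 := Nat.lt_succ_of_le (natDegree_le_iff_coeff_eq_zero.2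
    fun i hi => by rw [coeff_neg, coeff_divX, h2 _ (by omega), neg_zero])
  rw [eval_eq_sum_range' h3, Finset.sum_range_succ, add_mul, map_add, Finset.sum_mul, map_sum,
    Finset.sum_eq_zero fun i hi => ?_, zero_add, coeff_neg, coeff_divX, h1]
  · rcases Nat.even_or_odd m with h' | h' <;> simp [pow_succ, h'.neg_one_pow]
  · rw [coeff_neg, coeff_divX, hF, coeff_map, ← Tr89.pc_replicate,
      ← Tr89.zer hB i β (-f.coeff (i + 1) * τ) (List.replicate i b) List.length_replicate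
        (by have := Finset.mem_range.1 hi; omega), map_mul (B.pb _), map_neg (B.pb _)]
    congr 1
    rw [RingHom.coe_coe]
    ring

theorem sv_mem_geqN {z z' : Cfg io I K} (h : Cfg.GeqN 1 z z') (hs : z.sv (T0 io) ∈ z.Vt (T0 io)) :
    z'.sv (T0 io) ∈ z'.Vt (T0 io) := by
  obtain ⟨c, hc, h1⟩ := Cfg.geqN_iff.1 h
  rw [← Cfg.Vt_tr (k_T0 le_rfl)] at hs ⊢
  change (z'.tr 1).sv _ ∈ _
  rw [h1, Cfg.sv_gau, Cfg.Vt_gau _ hc]
  exact scl_mem hs

theorem single_le (j : Option J) : (Pi.single none 1 : Option J → ℕ) j ≤ 1 := by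
  rw [Pi.single_apply]
  split_ifs <;> omega

variable (N d T' lf) in
/-- the conclusion of `DescStmt` -/
def Dsc : Prop :=
  ∀ {I I₀ E E₀ : Type} [Fintype I] [Fintype I₀] [Field E] [Algebra ℂ E] [Field E₀]
    [Algebra ℂ E₀] (n : ℕ) (z : Cfg io I E) (g : I₀ → I) (z₀ : Cfg (bs io) I₀ E₀)
    (β : E₀ →ₐ[ℂ] E), TL (exd d n) N z → z.On T' →
    (∀ κ : J → ℕ, (∀ j, κ j ≤ N) → InjOn g (z.V (exd κ 0))) →
    GeqUp N (z₀.map β) (prC (z.res g)) →
    (∀ κ : Option J → ℕ, (∀ j, κ j ≤ 1) → InjOn g (z.V κ)) ∧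
      GeqUp 1 ((lf I₀ E₀ z₀).map β) (z.res g)

theorem Dsc.rank (h : Dsc N d T' lf) (hN : 1 ≤ N) {z : Cfg io I' E} {g : I → I'}
    {z₀ : Cfg (bs io) I E₀} {β : E₀ →ₐ[ℂ] E} (h1 : TL (exd d n) N z) (h2 : z.On T')
    (h3 : ∀ κ : J → ℕ, (∀ j, κ j ≤ N) → InjOn g (z.V (exd κ 0)))
    (h4 : GeqUp N (z₀.map β) (prC (z.res g))) :
    Module.finrank E₀ ((lf I E₀ z₀).V (Pi.single none 1)) - 1 = n := by
  obtain ⟨h5, h6⟩ := h n z g z₀ β h1 h2 h3 h4
  have h7 := finrank_geqN (geqUp_iff.1 h6) single_le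
  rw [finrank_res (h5 _ single_le), h1.finrank_V fun j => (single_le j).trans hN, dot_none] at h7
  rw [← finrank_mapS β]
  exact Nat.sub_eq_of_eq_add h7.symm

theorem Dsc.rank_lift (h : Dsc N d T' lf) (hN : 1 ≤ N) {ξ : Dat (bs io) d I K} {W : RZ ℂ K}
    {ζ : Dat io (exd d n) I K} (hζ : LiftAt T' N ξ W ζ) :
    Module.finrank (Rf W) ((lf I (Rf W) (ξ.cfg.red (plV W))).V (Pi.single none 1)) - 1 = n := by
  refine h.rank hN (g := id) (β := AlgHom.id ℂ _) hζ.tl hζ.on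
    (fun _ _ _ _ h0 => _root_.funext h0) (geqUp_iff.2 ?_)
  rw [Cfg.map_id, prC_res, prC_red, ← prD_cfg, hζ.prj]
  exact Cfg.GeqN.of_eq rfl fun κ _ => Submodule.map_id _

variable (N T T' r lf B) in
/-- the situation of `CoreStmt` -/
structure Sit (ξ : Dat (bs io) d I K) (α : K →ₐ[ℂ] L) (η : Dat io (exd d n) I' L) (g : I → I') :
    Prop where
  nx : ξ.NrmUp N
  pr : prD (η.res g) = ξ.map α
  ne : η.NrmUp N
  loc : Loc N n d T T' r
  dsc : Dsc N d T' lf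
  rk : Rk T ξ.cfg
  rk1 : Rk T (prC η.cfg)
  dv : (prC η.cfg).dv T = pb α (ξ.cfg.dv T)
  cp : ∀ {E : Type} [Field E] [Algebra ℂ E] [Algebra.EssFiniteType ℂ E] (p : LP L E),
    ((prC η.cfg).red p.toPl).On T → cpF B T (ξ.cfg.map α) E p = cpF B T (prC η.cfg) E p

variable (B T) in
/-- the integrand as a family -/
abbrev tF {J : Type} [Fintype J] [DecidableEq J] {io : J → Type} [∀ j, Fintype (io j)]
    [∀ j, DecidableEq (io j)] (T : Tgt io A) (z : Cfg io I K) (m : M → I) (Φ : MFam B io M) :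
    PF B K := qv (cpF B T z) (cf B (z.dv T)) * evF z m Φ

variable (B) in
/-- the global class `R0` as a family -/
abbrev RF (z : Cfg io I K) : PX B K := fun E _ _ p => (R0 B z).map (B.pb p : B.H K →+* B.H E)

namespace Sit

variable {ξ : Dat (bs io) d I K} {α : K →ₐ[ℂ] L} {η : Dat io (exd d n) I' L} {g : I → I'}
  (h : Sit N T T' B r lf ξ α η g) {p : LP L E} {p₀ : LP K E₀} {β : E₀ →ₐ[ℂ] E}
include h

theorem one_le : 1 ≤ N := by have := h.loc.big; omega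

theorem res_eq : (prC η.cfg).res g = ξ.cfg.map α := by
  rw [← prD_cfg, ← Dat.res_cfg, ← Vb37.cfg_map, ← h.pr]
  rfl

theorem nr : (prC η.cfg).NrUp g N := by
  rw [← prD_cfg]
  exact Dat.nrUp_cfg (show (prD (η.res g)).NrmUp N from h.pr ▸ Vb37.nrmUp_map h.nx α)

theorem geq (e : (LP.hom α).comp p = p₀.comp (LP.hom β)) :
    GeqUp N ((ξ.cfg.red p₀.toPl).map β) (prC ((η.cfg.red p.toPl).res g)) := by
  rw [geqUp_iff, prC_res, prC_red]
  refine .trans ?_ (h.nr.res_red h.rk1.nz p.toPl).symm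
  rw [h.res_eq]
  exact ((Cfg.map_red p₀ β h.rk.nz).symm.trans (e ▸ Cfg.red_map α p h.rk.nz)).geqN N

theorem inj (p : LP L E) (κ : J → ℕ) (hκ : ∀ j, κ j ≤ N) :
    InjOn g ((η.cfg.red p.toPl).V (exd κ 0)) := fun w hw h0 =>
  (h.nr.red h.rk1.nz p κ hκ).inj (by rw [← prC_red]; exact hw) h0

theorem desc (hp : (η.cfg.red p.toPl).On T') (e : (LP.hom α).comp p = p₀.comp (LP.hom β)) :
    InjOn g ((η.cfg.red p.toPl).V (Pi.single none 1)) ∧
      Cfg.GeqN 1 ((lf I E₀ (ξ.cfg.red p₀.toPl)).map β) ((η.cfg.red p.toPl).res g) :=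
  (h.dsc n _ g _ β (Bub96.tl_red h.ne _) hp (h.inj p) (h.geq e)).imp (· _ single_le) geqUp_iff.1

theorem rank (hp : (η.cfg.red p.toPl).On T') (e : (LP.hom α).comp p = p₀.comp (LP.hom β)) :
    Module.finrank E₀ ((lf I E₀ (ξ.cfg.red p₀.toPl)).V (Pi.single none 1)) - 1 = n :=
  Dsc.rank h.dsc h.one_le (Bub96.tl_red h.ne _) hp (h.inj p) (h.geq e)

variable (hB : B.Ax) [Algebra.EssFiniteType ℂ K] [Algebra.EssFiniteType ℂ L]
  [Algebra.EssFiniteType ℂ E] [Algebra.EssFiniteType ℂ E₀] {m : M → I} {Φ : MFam B (bs io) M}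
include hB

theorem R0_desc (hp : (η.cfg.red p.toPl).On T') (e : (LP.hom α).comp p = p₀.comp (LP.hom β)) :
    ∃ f : (B.H E₀)[X], RF B η.cfg E p = f.map (B.pb (LP.hom β) : B.H E₀ →+* B.H E) := by
  have h0 := η.cfg_nz.red p.toPl
  have hM := η.cfg_mul.red η.cfg_nz p.toPl
  have h1 : (η.cfg.red p.toPl).Nr g (Pi.single none 1) := nr_of_inj h0 fun U => by
    have h2 := Cfg.red_comp p (LP.at U) η.cfg_nz
    exact injOn_geq h2 (h.desc (β := AlgHom.id ℂ _)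
      ((h2.on T').1 (hp.red T' (lnr_plV U) h0)) (LP.comp_id _).symm).1
  have h2 := (h.desc hp e).2.symm
  have h3 := h2.nz (h0.res g)
  have h4 := sv_mem_geqN h2 ((hM.res g).sv_mem _)
  rw [Cfg.sv_map, Cfg.Vt_map, map_mem_mapS_iff] at h4
  refine ⟨R0 B (lf I E₀ (ξ.cfg.red p₀.toPl)), ?_⟩
  rw [← R0_map hB β (fun q => (nz_map β).1 (h3 q)) h4,
    R0_geqN hB le_rfl h2 (h0.res g) ((hM.res g).sv_mem _), R0_res hB h1 (hM.sv_mem _),
    R0_red hB p η.cfg_nz η.cfg_mul]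

theorem tau (hΦ : MCls B T Φ) (hp : ((prC η.cfg).red p.toPl).On T)
    (e : (LP.hom α).comp p = p₀.comp (LP.hom β)) :
    tF B T (prC η.cfg) (g ∘ m) Φ E p = B.pb (LP.hom β) (tF B T ξ.cfg m Φ E₀ p₀) := by
  have h1 := Cfg.red_map α p h.rk.nz
  have h2 : ((ξ.cfg.map α).red p.toPl).On T := h.res_eq ▸ fun q => hp (g q)
  have h3 := (h1.on T).1 h2
  have h4 : (ξ.cfg.red p₀.toPl).On T :=
    (Cfg.on_map T β).1 (((Cfg.map_red p₀ β h.rk.nz).on T).2 (e ▸ h3))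
  rw [← (h.rk.liv hB hΦ m _).nat _ _ p₀ (LP.hom β) ((mem_Zon h.rk.nz).2 h4), ← e]
  have h5 : evF (prC η.cfg) (g ∘ m) Φ E p = evF ξ.cfg m Φ E ((LP.hom α).comp p) := by
    rw [evF, evF, ← hΦ.geq h1 (h.rk.nz.red _) h3, ← h.res_eq]
    rfl
  have h6 : cpF B T (prC η.cfg) E p = cpF B T ξ.cfg E ((LP.hom α).comp p) :=
    (h.cp p hp).symm.trans (cpz_geq hB h1 (h.rk.nz.red _))
  have h7 : cf B ((prC η.cfg).dv T) E p = cf B (ξ.cfg.dv T) E ((LP.hom α).comp p) := by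
    rw [cf, cf, h.dv, hB.pb_comp, hB.pb_c1_hom]
  change (-(cpF B T _ E p).divX).eval (cf B _ E p) * evF _ _ Φ E p = _
  rw [h5, h6, h7]
  rfl

theorem low (G : Gr T T' d) (hΦ : MCls B T Φ) (hp : (η.cfg.red p.toPl).On T')
    (e : (LP.hom α).comp p = p₀.comp (LP.hom β)) {k : ℕ} (hk : mp io n = k + 1)
    (hd : k + dim ℂ E₀ ≤ dim ℂ E) (H : BD ℂ L) :
    B.itg E ((qv (cpF B T (prC η.cfg)) (cf B ((prC η.cfg).dv T)) * qv (RF B η.cfg) (cf B H) *
        evF (prC η.cfg) (g ∘ m) Φ) E p) =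
      (-1) ^ k * B.itg E ((cf B H ^ k * tF B T (prC η.cfg) (g ∘ m) Φ) E p) := by
  obtain ⟨f, hf⟩ := h.R0_desc hB hp e
  have h1 := h.tau (m := m) hB hΦ (prC_red p.toPl η.cfg ▸ on_prC G hp) e
  have h2 := Bub96.tl_red h.ne p.toPl
  have h3 := (Submodule.span_singleton_le_iff_mem _ _).2 (h.loc.sv_mem h2)
  have h4 := h.loc.finrank_quo h2
  have h5 : RF B η.cfg E p = R0 B (η.cfg.red p.toPl) := (R0_red hB p η.cfg_nz η.cfg_mul).symm
  rw [hk] at h4
  have := itg_low hB β f (tF B T ξ.cfg m Φ E₀ p₀) (p.rs H) hf (h5 ▸ hB.coeff_cp2_top h3 h4)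
    (fun i hi => h5 ▸ hB.coeff_cp2_gt h3 h4 hi) hd
  rw [← hB.pb_c1, ← h1] at this
  refine Eq.trans (congrArg _ ?_) this
  rw [mul_right_comm, mul_comm]
  rfl

open Classical in
theorem term (G : Gr T T' d) (hΦ : MCls B T Φ) (hm : 1 ≤ mp io n)
    (hd : dim ℂ L = dim ℂ K + mp io n) {V : RZ ℂ L} (hV : Dvs V) (hW : Dvs (dn α V))
    (hO : V ∈ Zon T (prC η.cfg)) :
    (if (η.cfg.dv T').val V = 1 then
      sm ((plV V).res (η.cfg.dv T')) (i2 (qv (cpF B T (prC η.cfg)) (cf B ((prC η.cfg).dv T)) *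
        qv (RF B η.cfg) (cf B (η.cfg.dv T')) * evF (prC η.cfg) (g ∘ m) Φ) V)
    else i1 (qv (cpF B T (prC η.cfg)) (cf B ((prC η.cfg).dv T)) * Sym65.pv (RF B η.cfg) 0 *
      evF (prC η.cfg) (g ∘ m) Φ) V) =
    if (η.cfg.dv T').val V = 1 then (-1) ^ (mp io n + 1) * B.itg (Rf V)
      (B.c1 ((plV V).res (η.cfg.dv T')) ^ mp io n *
        B.pb (LP.hom (rf α V)) (trm B T ξ.cfg m Φ (dn α V))) else 0 := by
  have := essFT_Rf hV
  have := essFT_Rf hW
  have d1 := dim_rf hV hW.ne_top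
  have e0 : (LP.hom α).comp (LP.at V) = (LP.at (dn α V)).comp (LP.hom (rf α V)) :=
    LP.ext fun x => by simpa [LP.at_toPl] using (rf_r α V x).symm
  have t0 := h.tau (m := m) hB hΦ (p := LP.at V) hO e0
  split_ifs with h1
  · obtain ⟨k, hk⟩ : ∃ k, mp io n = k + 1 := ⟨mp io n - 1, by omega⟩
    have l1 : Liv B (Zon T (prC η.cfg)) (cf B (η.cfg.dv T') ^ k * tF B T (prC η.cfg) (g ∘ m) Φ) :=
      ((Liv.cf hB _).pow k).mul (h.rk1.liv hB hΦ _ _)
    rw [Sym65.sm_congr (g := fun U => (-1) ^ k *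
      i2 (cf B (η.cfg.dv T') ^ k * tF B T (prC η.cfg) (g ∘ m) Φ) V U) fun U hU h2 => ?_,
      Sym65.sm_mul, ← Sym65.i1_cf hB l1 hV hO h1, hk, pow_succ, pow_succ, trm_eq, ← t0,
      ← LP.at_toPl V, ← hB.pb_c1_res (LP.at V) h1, ← mul_assoc, ← pow_succ']
    · rw [mul_neg_one, mul_neg_one, neg_neg]
      rfl
    · have := essFT_Rf hU
      have d2 := dim_Rf' hU
      have hp : (η.cfg.red ((LP.at V).comp (LP.at U)).toPl).On T' :=
        Cfg.on_red_of T' (LP.lnr _) η.cfg_nz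
          ((Sym65.res_one_iff (LP.at V) h1).not.1 ((od_eq_zero hU).not.1 h2))
      by_cases h3 : (dn (rf α V) U).1 = ⊤
      · refine h.low hB G hΦ hp (p₀ := LP.at (dn α V)) (β := Tr89.rh (rf α V) U fun x =>
          mem_dn.1 (h3 ▸ ValuationSubring.mem_top x)) (LP.ext fun x => ?_) hk (by omega) _
        simpa [LP.at_toPl, Tr89.rh] using congrArg (plV U).r (rf_r α V x).symm
      · have h4 := dvs_dn hU h3
        have := essFT_Rf h4
        have d3 := dim_Rf' h4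
        refine h.low hB G hΦ hp (p₀ := (LP.at (dn α V)).comp (LP.at (dn (rf α V) U)))
          (β := rf (rf α V) U) (LP.ext fun x => ?_) hk (by omega) _
        simpa [LP.at_toPl] using (congrArg (plV U).r (rf_r α V x).symm).trans (rf_r (rf α V) U _).symm
  · obtain ⟨f, hf⟩ := h.R0_desc hB (p := LP.at V) (on_at η.cfg_nz h1) e0
    rw [mul_right_comm, ← hB.van (rf α V) (by omega) (tF B T ξ.cfg m Φ _ (LP.at _) * f.eval 0),
      map_mul, ← t0, pb_eval, ← hf, map_zero]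
    rfl

end Sit

end Crest.Agent.X262.Emb
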