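import Crest.Agent.X262.Emb11.Bas

/-!
# Row 262, road B, EMB (helper11), part 2: the factorisation of the Chern polynomial

* `Loc` : the exact sequence on tree-like configurations;
* `Loc.whit` : `cp Eb' = cp Eb * R0`;   `Loc.root` : `R0 (h) = 0` where `H < D`.
-/

set_option autoImplicit false
set_option linter.unusedSectionVars false

noncomputable section

namespace Crest.Agent.X262.Emb

open Crest.Agent.X277 Crest.Agent.X277.BD Crest.Agent.X277.Pst Crest.Agent.X277.BD.Cyc Polynomial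
open Crest.Agent.X262.Hb Crest.Agent.X262.Vb
open Crest.Agent.X262.Tree87 (TL HZ mpL mpL_apply pM pR pK)
open Crest.Agent.X262.Node22 (scl chr chr_ne mem_Vt)
open Crest.Agent.X262.Sym65 (cf)

variable {J : Type} [Fintype J] [DecidableEq J] {io : Option J → Type} [∀ j, Fintype (io j)]
  [∀ j, DecidableEq (io j)] {A A' : Type} [Fintype A] [Fintype A']
  {I K E : Type} [Fintype I] [Field K] [Algebra ℂ K] [Field E] [Algebra ℂ E]
  {z : Cfg io I K} {N n c : ℕ} {d : J → ℕ} {T : Tgt (bs io) A} {T' : Tgt io A'} {B : Th}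
  {r : A → A' → MvPolynomial (Vr io) ℂ}

variable (T T' r d n N) in
/-- the exact sequence of obstruction spaces on tree-like configurations -/
structure Loc : Prop where
  isR : IsR T T' r
  big : Fintype.card (io none) + 2 ≤ N
  kle : ∀ a j, T'.k a j ≤ N
  red : ∀ {I K E : Type} [Fintype I] [Field K] [Algebra ℂ K] [Field E] [Algebra ℂ E] (p : LP K E)
    (z : Cfg io I K), z.Pr p.V → TL (exd d n) N z → TL (exd d n) N (z.red0 p.toPl) → z.On T' →
    (z.red0 p.toPl).Eb T' = redS p.toPl (z.Eb T')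
  ex : ∀ {I E : Type} [Fintype I] [Field E] [Algebra ℂ E] (z : Cfg io I E), TL (exd d n) N z →
    z.On T' → (z.Eb T').map (phi r z) = (prC z).Eb T ∧
      z.Eb T' ⊓ LinearMap.ker (phi r z) = Tk T' z ∧ Module.finrank E (Tk T' z) = mp io n ∧
      ∀ q, Module.finrank E (pR (jac0 T') (z.y q)) = Fintype.card (io none) - 1

theorem exists_loc (hE : ExactStmt) (G : Gr T T' d) (hr : IsR T T' r) (hT : Good T c d)
    (hT' : Good T' (cp' io c) (exd d n)) : ∃ N₀, ∀ N, N₀ ≤ N → Loc N n d T T' r := by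
  obtain ⟨N₁, h1⟩ := hE G r c n hr hT hT'
  obtain ⟨-, S, hS⟩ := hT'
  obtain ⟨N₂, h2⟩ := Tree87.exists_big S
  refine ⟨N₁ + N₂ + (Fintype.card (io none) + 2), fun N hN => ⟨hr, by omega,
    (h2 N (by omega)).k_le, fun p z hz t1 t2 hO => ?_, fun z => h1 N z (by omega)⟩⟩
  exact (Tree87.Eb_red0 p.lnr (fun q j => (hz q j).1) t1 t2 hS (h2 N (by omega)) hO).1

theorem hz_jac0 (T' : Tgt io A') : HZ T'.k (T0 io).k (jac0 T') :=
  fun a i => Tree87.hz_jac T' a ⟨none, i⟩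

theorem euler0 {y : Pnt io K} (h : T'.On y) : y none ∈ pK (jac0 T') y := by
  refine Tree87.mem_pK.2 fun a => ?_
  have := congrFun (Node22.jac_euler T' h (Pi.single none 1)) a
  rw [Node22.jac_apply, Fintype.sum_sigma, Fintype.sum_option] at this
  simp only [Node22.vsc_apply, Pi.single_eq_same, one_mul, ne_eq, reduceCtorEq, not_false_eq_true,
    Pi.single_eq_of_ne, zero_mul, mul_zero, Finset.sum_const_zero, add_zero] at this
  exact this

/-- tree-like, with all reductions -/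
def TLa (d : Option J → ℕ) (N : ℕ) (z : Cfg io I K) : Prop :=
  TL d N z ∧ ∀ V, TL d N (z.red (plV V))

theorem tla_red {e : Option J → ℕ} {η : Dat io e I K} (h : η.NrmUp N) (p : LP K E) :
    TLa e N (η.cfg.red p.toPl) := by
  refine ⟨Bub96.tl_red h _, fun V => ?_⟩
  obtain ⟨c, hc, h1⟩ := Cfg.red_comp p (LP.at V) (Tree87.nz_cfg η)
  exact (show _ = _ from h1) ▸ (Bub96.tl_red h _).gau hc

namespace Loc

variable (h : Loc N n d T T' r)
include h

theorem sv_mem (hz : TL (exd d n) N z) : z.sv (T0 io) ∈ z.Vt (T0 io) :=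
  hz.sv_mem_Vt (k_T0 (by have := h.big; omega))

theorem ker_jac0 (hP : PropStmt) (hz : TL (exd d n) N z) (hO : z.On T') :
    z.Vt (T0 io) ⊓ LinearMap.ker (mpL (jac0 T') z) = K ∙ z.sv (T0 io) := by
  refine le_antisymm (fun σ hσ => ?_) ((Submodule.span_singleton_le_iff_mem _ _).2
    ⟨h.sv_mem hz, Tree87.mem_ker_mpL.2 fun q => by simpa only [sv_T0] using euler0 (hO q)⟩)
  have h1 : ∀ q, ∃ t : K, ∀ a, σ (a, q) = t * z.y q none a := fun q => by
    obtain ⟨i, hi⟩ := hz.nz q none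
    have h2 := Tree87.finrank_pR_add_pK (jac0 T') (z.y q)
    have h3 : 0 < Fintype.card (io none) := Fintype.card_pos_iff.2 ⟨i⟩
    rw [(h.ex z hz hO).2.2.2 q] at h2
    have h4 : Module.finrank K (pK (jac0 T') (z.y q)) = 1 := by omega
    obtain ⟨t, ht⟩ := (finrank_eq_one_iff_of_nonzero' (⟨_, euler0 (hO q)⟩ : pK (jac0 T') (z.y q))
      fun h0 => hi (congrFun (congrArg Subtype.val h0) i)).1 h4
      ⟨_, Tree87.mem_ker_mpL.1 hσ.2 q⟩
    exact ⟨t, fun a => (congrFun (congrArg Subtype.val ht) a).symm⟩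
  obtain ⟨μ, hμ⟩ := hP z (AlgHom.id ℂ K) none hz (by have := h.big; omega) (fun a q => σ (a, q))
    (fun a => by rw [mapS_id]; exact mem_Vt.1 hσ.1 a) fun q a b => by
      obtain ⟨t, ht⟩ := h1 q
      simp only [ht, AlgHom.id_apply]
      ring
  exact Submodule.mem_span_singleton.2 ⟨μ, _root_.funext fun x => by
    rw [Pi.smul_apply, sv_T0]; exact (hμ x.1 x.2).symm⟩

theorem finrank_Vt0 (hz : TL (exd d n) N z) :
    Module.finrank K (z.Vt (T0 io)) = Fintype.card (io none) * (n + 1) := by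
  obtain ⟨k, _, _, _, ⟨D⟩⟩ := hz
  have := D.finrank_Am (kk := (T0 io).k) fun b j =>
    (Nat.mul_le_mul_left _ (k_T0 le_rfl b j)).trans (by have := h.big; omega)
  exact this.trans (by simp [T0, dot_none])

theorem sv_ne (hz : TL (exd d n) N z) : z.sv (T0 io) ≠ 0 := fun h0 => by
  rcases isEmpty_or_nonempty I with hI | ⟨⟨q⟩⟩
  · have := hz.finrank_V (κ := 0) fun _ => Nat.zero_le _
    rw [Module.finrank_zero_of_subsingleton] at this
    omega
  · obtain ⟨i, hi⟩ := hz.nz q none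
    exact hi ((sv_T0 z (i, q)).symm.trans (congrFun h0 _))

theorem finrank_quo (hz : TL (exd d n) N z) :
    Module.finrank K (z.Vt (T0 io)) = Module.finrank K (K ∙ z.sv (T0 io)) + mp io n := by
  have h1 := Submodule.finrank_mono ((Submodule.span_singleton_le_iff_mem _ _).2 (h.sv_mem hz))
  rw [finrank_span_singleton (h.sv_ne hz)] at h1 ⊢
  rw [h.finrank_Vt0 hz] at h1 ⊢
  rw [mp]
  omega

theorem map_jac0 (hP : PropStmt) (hz : TL (exd d n) N z) (hO : z.On T') :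
    (z.Vt (T0 io)).map (mpL (jac0 T') z) = Tk T' z := by
  refine Submodule.eq_of_le_of_finrank_eq ?_ ?_
  · rintro _ ⟨σ, hσ, rfl⟩
    obtain ⟨k, _, _, _, ⟨D⟩⟩ := hz
    exact Tree87.mem_Rb.2 ⟨Tree87.mem_Am.1 (D.mpL_mem (hz_jac0 T')
      (k_T0 (by have := h.big; omega)) h.kle hσ), fun q => ⟨_, (Tree87.mpL_at _ z σ q).symm⟩⟩
  · have h1 := Node22.finrank_map_add (mpL (jac0 T') z) (z.Vt (T0 io))
    rw [h.ker_jac0 hP hz hO, h.finrank_quo hz] at h1
    rw [(h.ex z hz hO).2.2.1]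
    omega

variable (hB : B.Ax) [Algebra.EssFiniteType ℂ K]
include hB

theorem cp_Tk (hP : PropStmt) (hz : TLa (exd d n) N z) (hO : z.On T') :
    B.cp (z.ea T') (Tk T' z) = R0 B z := by
  rw [← h.map_jac0 hP hz.1 hO, R0, ← h.ker_jac0 hP hz.1 hO]
  refine (hB.cp2_ont (ont_of (hz_jac0 T') hz.1.nz fun V => ?_)).symm
  have h1 := hO.red T' (lnr_plV V) hz.1.nz
  rw [← Cfg.Vt_gau _ (Cfg.nrm_ne V z), Cfg.redS_Vt, h.map_jac0 hP hz.1 hO, (h.ex z hz.1 hO).2.2.1]
  exact ((congrArg (fun U : Submodule _ _ => Module.finrank _ U) (h.map_jac0 hP (hz.2 V) h1)).trans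
    (h.ex _ (hz.2 V) h1).2.2.1).ge

theorem whit (hP : PropStmt) (hz : TLa (exd d n) N z) (hO : z.On T') :
    cpz B T' z = cpz B T (prC z) * R0 B z := by
  obtain ⟨h1, h2, h3, -⟩ := h.ex z hz.1 hO
  rw [cpz, cpz, ← h.cp_Tk hB hP hz hO, ← h1, ← h2, ea_prC, mul_comm]
  refine hB.cp_whitney (ont_of h.isR.1 hz.1.nz fun V => ?_)
  have h4 := hO.red T' (lnr_plV V) hz.1.nz
  have h5 := h.red (LP.at V) _ (Cfg.pr_nrm hz.1.nz V) (hz.1.gau (Cfg.nrm_ne V z)) (hz.2 V)
    ((Cfg.on_gau T' (Cfg.nrm_ne V z)).2 hO)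
  obtain ⟨-, h6, h7, -⟩ := h.ex _ (hz.2 V) h4
  have h8 := Node22.finrank_map_add (phi r z) (z.Eb T')
  have h9 := Node22.finrank_map_add (phi r (z.red (plV V))) ((z.red (plV V)).Eb T')
  have h10 : Module.finrank (Rf V) ((z.red (plV V)).Eb T') = Module.finrank K (z.Eb T') :=
    (congrArg (fun U : Submodule _ _ => Module.finrank _ U) h5).trans ((finrank_redS _ _).trans
      ((Cfg.geq_gau z (Cfg.nrm_ne V z)).finrank_Eb T'))
  rw [h2, h3] at h8
  rw [h6, h7, h10] at h9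
  rw [← Cfg.Eb_gau _ (Cfg.nrm_ne V z)]
  change Module.finrank K ((z.Eb T').map (phi r z)) ≤ Module.finrank (Rf V)
    ((redS (LP.at V).toPl _).map (phi r (z.red (plV V))))
  rw [← h5]
  exact (Nat.add_right_cancel (h8.trans h9.symm)).le

omit [Algebra.EssFiniteType ℂ K] in
theorem root [Algebra.EssFiniteType ℂ E] (hP : PropStmt) (G : Gr T T' d) (hR : Rk T' z)
    (hO : ¬ (prC z).On T) {p : LP K E} (hz : TLa (exd d n) N (z.red p.toPl))
    (hp : (z.red p.toPl).On T') (hlt : (z.dv T').val p.V < ((prC z).dv T).val p.V) :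
    (R0 B (z.red p.toPl)).eval (cf B (z.dv T') E p) = 0 := by
  have hP' := Cfg.pr_nrm hR.nz p.V
  have hd := Cfg.dv_gau T' hR.nz (Cfg.nrm_ne p.V z)
  have h0 : (z.gau (z.nrm p.V)).sv T' ≠ 0 := fun h0 =>
    hO (on_prC G ((Cfg.on_gau T' (Cfg.nrm_ne p.V z)).1 ((Cfg.on_iff T').2 h0)))
  have hg := gen_ne (z.dv T') p.V
  have h1 : nm ((z.gau (z.nrm p.V)).ea T') p.V
      ((z.dv T').gen p.V • (z.gau (z.nrm p.V)).sv T') = 1 := by
    rw [nm_smul, v_gen, ← hd, Cfg.dv, val_neg, val_sz h0, inv_mul_cancel₀ (nm_pos h0).ne']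
  have h2 : Itg p ((z.dv T').gen p.V • (z.gau (z.nrm p.V)).sv T') :=
    (itg_iff (hP'.val_ea T')).2 h1.le
  have h3 : rv p ((z.dv T').gen p.V • (z.gau (z.nrm p.V)).sv T') ≠ 0 :=
    (rv_eq_zero (hP'.val_ea T') h2).not.2 h1.not_lt
  have h4 : z.dv T' - pr ℂ ((z.dv T').gen p.V) =
      -sz ((z.dv T').gen p.V • (z.gau (z.nrm p.V)).sv T') ((z.gau (z.nrm p.V)).ea T') := by
    rw [sz_smul h0 hg, neg_add, ← Cfg.dv, hd]
    abel
  have h5 : rv p ((z.dv T').gen p.V • (z.gau (z.nrm p.V)).sv T') ∈ Tk T' (z.red p.toPl) := by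
    rw [← (h.ex _ hz.1 hp).2.1]
    refine ⟨hR.sv p hp _ h2, _root_.funext fun x => ?_⟩
    have h6 : Cfg.Geq (prC z) (prC (z.gau (z.nrm p.V))) :=
      prC_gau _ z ▸ Cfg.geq_gau _ fun q j => Cfg.nrm_ne p.V z q (some j)
    have h7 : (prC (z.gau (z.nrm p.V))).Pr p.V := fun q j => hP' q (some j)
    obtain ⟨h8, h9⟩ := mpL_red0 (ψ := r) hP' h2 x
    refine h9.symm.trans ((Pl.r_eq_zero h8).2 ?_)
    rw [map_smul, ← sv_prC h.isR]
    refine (le_nm ((prC (z.gau (z.nrm p.V))).ea T) p.V _ x).trans_lt ?_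
    rw [h7.val_ea, mul_one, nm_smul, v_gen, ← inv_inv (nm _ _ _),
      ← Cfg.val_dv T ((h6.on T).not.2 hO), h6.dv T (nz_prC hR.nz)]
    exact (mul_inv_lt_iff₀ (val_pos _ _)).2 (by rwa [one_mul])
  rw [cf, hB.pb_c1_gen p (v_gen _ _), h4, Pl.res_neg (by rw [val_sz (smul_ne_zero hg h0), h1]),
    res_sz p.toPl (hP'.val_ea T') h1, ← h.cp_Tk hB hP hz hp, Cfg.red, Cfg.ea_red0 T' hP']
  exact (congrArg (fun b => eval (B.c1 (-b)) _) (sz_eq_dst h3 _)).trans (hB.eval_cp_line h5 h3)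

end Loc

end Crest.Agent.X262.Emb
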